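import Vale.Agent.Lib.P050.Bridge

open MeasureTheory

/-- Local Sidorenko inequality with a bound depending only on the maximum degree: if `H` is a
bipartite graph of maximum degree at most `Δ`, `(Ω, μ)` is a probability space (for instance
`[0,1]` with Lebesgue measure) and `W` is a symmetric measurable kernel with integral one and
`|W - 1| ≤ 1 / (60 Δ)` almost everywhere, then the homomorphism density `t(H, W)` is at least one. -/
theorem Vale.Agent.Results.P050.LocalMaxDegree.result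
    {V Ω : Type*} [Fintype V] [DecidableEq V] [MeasurableSpace Ω]
    (μ : Measure Ω) [IsProbabilityMeasure μ]
    (H : SimpleGraph V) [DecidableRel H.Adj] (hH : H.Colorable 2)
    (Δ : ℕ) (hΔ : 1 ≤ Δ) (hdeg : ∀ v, H.degree v ≤ Δ)
    (W : Ω → Ω → ℝ) (hW : Measurable (Function.uncurry W)) (hsym : ∀ a b, W a b = W b a)
    (hint : ∫ p : Ω × Ω, W p.1 p.2 ∂(μ.prod μ) = 1)
    (hclose : ∀ᵐ p : Ω × Ω ∂(μ.prod μ), |W p.1 p.2 - 1| ≤ 1 / (60 * (Δ : ℝ))) :
    1 ≤ ∫ x : V → Ω, ∏ e ∈ H.edgeFinset,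
        Sym2.lift ⟨fun a b => W (x a) (x b), fun a b => hsym _ _⟩ e ∂(Measure.pi fun _ => μ) :=
  Vale.Agent.Lib.P050.local_sidorenko μ H hH Δ hΔ hdeg W hW hsym hint hclose
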